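import Vale.Agent.P237.Quant.TailData.N15.tailN15P1Part0
import Vale.Agent.P237.Quant.TailData.N15.tailN15P1Part1
import Vale.Agent.P237.Quant.TailData.N15.tailN15P1Part2
import Vale.Agent.P237.Quant.TailData.N15.tailN15P1Part3

/-!
Tail calibration tailN15P1 in dimension 15. The check. Generated data, checked by the kernel.
-/

set_option maxRecDepth 100000
set_option linter.all false

namespace Vale.Agent.P237.Quant.TailData

open TailCert


/-- The calibration. -/
noncomputable def tailN15P1 : Cfg :=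
  tailN15P1Base.withIvals (List.flatten [tailN15P1L0, tailN15P1L1, tailN15P1L2, tailN15P1L3, tailN15P1L4, tailN15P1L5, tailN15P1L6, tailN15P1L7, tailN15P1L8, tailN15P1L9, tailN15P1L10, tailN15P1L11, tailN15P1L12, tailN15P1L13])

theorem tailN15P1_parts : [tailN15P1L0, tailN15P1L1, tailN15P1L2, tailN15P1L3, tailN15P1L4, tailN15P1L5, tailN15P1L6, tailN15P1L7, tailN15P1L8, tailN15P1L9, tailN15P1L10, tailN15P1L11, tailN15P1L12, tailN15P1L13].Forall fun l => tailN15P1Base.partUsed tailN15P1Used l = true := by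
  simp only [List.forall_cons, List.Forall]
  exact ⟨tailN15P1L0_ok, tailN15P1L1_ok, tailN15P1L2_ok, tailN15P1L3_ok, tailN15P1L4_ok, tailN15P1L5_ok, tailN15P1L6_ok, tailN15P1L7_ok, tailN15P1L8_ok, tailN15P1L9_ok, tailN15P1L10_ok, tailN15P1L11_ok, tailN15P1L12_ok, tailN15P1L13_ok⟩

theorem tailN15P1_check : tailN15P1.check = true :=
  Cfg.check_of_parts (by decide +kernel) tailN15P1_parts

end Vale.Agent.P237.Quant.TailData
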